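import Vale.Agent.P235.ST.H317.Defs

/-! P235, (ST) O(1): rows r3, r4, r5 of part B. helper649. -/

namespace Vale.Agent.P235.STO.H649

open SimpleGraph

variable {V : Type} (W : LWorld V)

/-- row r1 `bi_of_reach` -/
def BiOfReach : Prop := ∀ (k m : ℕ) {x y : V}, (W.Bg k m).Reachable x y →
    W.bi k m x = W.bi k m y ∧ W.G.dist x y ≤ (W.Bg k m).dist x y

/-- row r2 `D_T` -/
def DT : Prop := ∀ (k m : ℕ) {p q : V}, p ∈ W.N → q ∈ W.N →
    (W.Bg k m).Reachable p q → W.idx p ≤ W.idx q →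
    (W.D k m p : ℤ) + (W.Bg k m).dist p q ≤ W.D k m q + 2 * th k

/-- row r1 `exists_mid` -/
def ExMid : Prop := ∀ (k : ℕ) (z : V), ∃ m < 16, W.mid k m z

theorem d_nonneg (x y : V) : 0 ≤ W.d x y := Nat.cast_nonneg _

theorem d_self (x : V) : W.d x x = 0 := by simp [LWorld.d]

theorem d_comm (x y : V) : W.d x y = W.d y x := by simp [LWorld.d, SimpleGraph.dist_comm]

theorem d_tri (x y z : V) : W.d x z ≤ W.d x y + W.d y z := by
  unfold LWorld.d
  exact_mod_cast W.conn.dist_triangle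

theorem kap_pos : 0 < kap := by unfold kap; positivity

theorem th_pos (k : ℕ) : (0 : ℝ) < (th k : ℝ) := by unfold th; positivity

variable [Fintype V]

theorem nxt_nonneg (ρ : V → ℝ) (x : V) : 0 ≤ W.nxt ρ x := by
  classical
  apply Real.iSup_nonneg
  intro p
  split_ifs
  · exact le_max_left _ _
  · exact le_rfl

theorem le_nxt {ρ : V → ℝ} {z y : V} (hu : W.uns ρ z y) (x : V) :
    W.d z y - W.d x z / kap ≤ W.nxt ρ x := by
  classical
  have := le_ciSup (f := fun zy : V × V => if W.uns ρ zy.1 zy.2 then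
    max 0 (W.d zy.1 zy.2 - W.d x zy.1 / kap) else 0) (Set.finite_range _).bddAbove (z, y)
  simp only [hu, if_true] at this
  exact (le_max_right _ _).trans this

theorem nxt_attain {ρ : V → ℝ} {x : V} (h : 0 < W.nxt ρ x) :
    ∃ z y, W.uns ρ z y ∧ W.nxt ρ x = W.d z y - W.d x z / kap := by
  classical
  have : Nonempty (V × V) := ⟨(x, x)⟩
  obtain ⟨p, hp⟩ := exists_eq_ciSup_of_finite (f := fun zy : V × V => if W.uns ρ zy.1 zy.2 then
    max 0 (W.d zy.1 zy.2 - W.d x zy.1 / kap) else 0)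
  have hp' : W.nxt ρ x = if W.uns ρ p.1 p.2 then
    max 0 (W.d p.1 p.2 - W.d x p.1 / kap) else 0 := hp.symm
  by_cases hu : W.uns ρ p.1 p.2
  · rw [if_pos hu] at hp'
    refine ⟨p.1, p.2, hu, ?_⟩
    rw [hp'] at h ⊢
    rcases lt_max_iff.1 h with h | h
    · exact absurd h (lt_irrefl _)
    · exact max_eq_right h.le
  · rw [if_neg hu] at hp'
    rw [hp'] at h
    exact absurd h (lt_irrefl _)

theorem nxt_lip1 (ρ : V → ℝ) (x y : V) : W.nxt ρ x ≤ W.nxt ρ y + W.d y x / kap := by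
  rcases (nxt_nonneg W ρ x).lt_or_eq with h | h
  · obtain ⟨z, y', hu, he⟩ := nxt_attain W h
    have h1 := le_nxt W hu y
    rw [he]
    have h2 : W.d y z / kap ≤ W.d y x / kap + W.d x z / kap := by
      rw [← add_div]
      exact div_le_div_of_nonneg_right (d_tri W y x z) kap_pos.le
    linarith
  · rw [← h]
    have h1 := nxt_nonneg W ρ y
    have h2 : 0 ≤ W.d y x / kap := div_nonneg (d_nonneg W y x) kap_pos.le
    linarith

/-- row r3 -/
theorem nxt_scale (ρ : V → ℝ) : W.Scale (W.nxt ρ) := by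
  refine ⟨nxt_nonneg W ρ, fun x y => ?_⟩
  rw [abs_le]
  have h1 := nxt_lip1 W ρ x y
  have h2 := nxt_lip1 W ρ y x
  rw [d_comm W y x] at h1
  constructor <;> linarith

/-- row r3 -/
theorem rho_scale (i : ℕ) : W.Scale (W.rho i) := by
  cases i with
  | zero =>
    have hk := kap_pos
    refine ⟨fun x => ?_, fun x y => ?_⟩
    · show (0 : ℝ) ≤ (4 * Fintype.card V) / kap
      positivity
    · show |(4 * Fintype.card V : ℝ) / kap - (4 * Fintype.card V) / kap| ≤ W.d x y / kap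
      rw [sub_self, abs_zero]
      exact div_nonneg (d_nonneg W x y) hk.le
  | succ i => exact nxt_scale W (W.rho i)

omit [Fintype V] in
/-- the thinnest thickness of the list -/
theorem exists_thin {r : ℝ} (h16 : 16 ≤ dl * r) :
    ∃ k, inList r k ∧ (th k : ℝ) ≤ max 16 (2 * (d1 * r)) := by
  classical
  have hthc : ∀ k, (th k : ℝ) = 16 * 2 ^ k := by intro k; unfold th; push_cast; ring
  have hex : ∃ k : ℕ, d1 * r ≤ (th k : ℝ) := by
    obtain ⟨n, hn⟩ := pow_unbounded_of_one_lt (d1 * r) (one_lt_two : (1 : ℝ) < 2)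
    refine ⟨n, ?_⟩
    rw [hthc]
    have : (0 : ℝ) < 2 ^ n := by positivity
    linarith
  have hk := Nat.find_spec hex
  have hmin : (th (Nat.find hex) : ℝ) ≤ max 16 (2 * (d1 * r)) := by
    rcases Nat.eq_zero_or_pos (Nat.find hex) with h | h
    · rw [h, hthc]; simp
    · obtain ⟨j, hj⟩ : ∃ j, Nat.find hex = j + 1 := ⟨Nat.find hex - 1, by omega⟩
      have hj' : ¬ (d1 * r ≤ (th j : ℝ)) := Nat.find_min hex (by omega)
      apply le_max_of_le_right
      rw [hj]
      rw [hthc] at hj' ⊢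
      rw [pow_succ]
      linarith [not_le.1 hj']
  refine ⟨Nat.find hex, ⟨hk, hmin.trans (max_le h16 ?_)⟩, hmin⟩
  have hr : 0 ≤ r := by
    by_contra hc
    have : dl * r ≤ 0 := mul_nonpos_of_nonneg_of_nonpos (by unfold dl; positivity)
      (not_le.1 hc).le
    linarith
  have : 2 * d1 ≤ dl := by unfold d1 dl; norm_num
  nlinarith

omit [Fintype V] in
theorem serves_of_lt (hbi : BiOfReach W) (hDT : DT W) {k m : ℕ} {z y : V} (hz : z ∈ W.N)
    (hy : y ∈ W.N) (hi : W.idx z ≤ W.idx y) (hm : W.mid k m z)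
    (hd : 4 * (th k : ℝ) ≤ W.d z y) : W.serves k m z y := by
  refine ⟨hm, ?_⟩
  by_cases hr : (W.Bg k m).Reachable z y
  · right
    have h1 := hDT k m hz hy hr hi
    have h2 := (hbi k m hr).2
    have h1' : (W.D k m z : ℝ) + ((W.Bg k m).dist z y : ℝ) ≤ W.D k m y + 2 * (th k : ℝ) := by
      exact_mod_cast h1
    have h2' : W.d z y ≤ ((W.Bg k m).dist z y : ℝ) := by
      unfold LWorld.d; exact_mod_cast h2
    have h3 : cp * W.d z y ≤ 1 / 2 * W.d z y :=
      mul_le_mul_of_nonneg_right (by unfold cp; norm_num) (d_nonneg W z y)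
    linarith
  · exact Or.inl hr

omit [Fintype V] in
/-- row r4 -/
theorem uns_le_of (hbi : BiOfReach W) (hDT : DT W) (hmid : ExMid W) {ρ : V → ℝ} {z y : V}
    (hu : W.uns ρ z y) : W.d z y ≤ 16 * d1 * ρ z := by
  obtain ⟨hz, hy, -, hi, h0, h1, h2⟩ := hu
  have h16 : 16 ≤ dl * ρ z := by
    have : dl = kap / 8 := by unfold dl kap; norm_num
    rw [this]
    have h3 : (128 : ℝ) ≤ r0 := by unfold r0; norm_num
    linarith
  obtain ⟨k, hk, hkm⟩ := exists_thin h16
  obtain ⟨m, hm16, hm⟩ := hmid k z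
  have h3 : W.d z y < 4 * (th k : ℝ) := by
    by_contra hc
    exact h2 k m hm16 hk (serves_of_lt W hbi hDT hz hy hi hm (not_lt.1 hc))
  have h4 : (128 : ℝ) ≤ r0 := by unfold r0; norm_num
  rcases le_max_iff.1 hkm with h5 | h5
  · linarith
  · have : 0 ≤ d1 * ρ z := by
      have h6 := th_pos k
      linarith
    linarith

theorem nxt_le_of (hbi : BiOfReach W) (hDT : DT W) (hmid : ExMid W) {ρ : V → ℝ}
    (h : W.Scale ρ) (x : V) : W.nxt ρ x ≤ 16 * d1 * ρ x := by
  have hd1 : (0 : ℝ) ≤ 16 * d1 := by unfold d1; positivity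
  have hd1' : 16 * d1 ≤ (1 : ℝ) := by unfold d1; norm_num
  rcases (nxt_nonneg W ρ x).lt_or_eq with h' | h'
  · obtain ⟨z, y, hu, he⟩ := nxt_attain W h'
    have h2 := uns_le_of W hbi hDT hmid hu
    have h3 := (abs_le.1 (h.lip z x)).2
    rw [d_comm W z x] at h3
    have h4 : 0 ≤ W.d x z / kap := div_nonneg (d_nonneg W x z) kap_pos.le
    rw [he]
    have h5 : 16 * d1 * ρ z ≤ 16 * d1 * (ρ x + W.d x z / kap) :=
      mul_le_mul_of_nonneg_left (by linarith) hd1
    have h6 : 16 * d1 * (W.d x z / kap) ≤ 1 * (W.d x z / kap) :=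
      mul_le_mul_of_nonneg_right hd1' h4
    nlinarith
  · rw [← h']
    exact mul_nonneg hd1 (h.nonneg x)

theorem rho_eventually_of (hbi : BiOfReach W) (hDT : DT W) (hmid : ExMid W) :
    ∃ n, ∀ x, W.rho n x = 0 := by
  set R : ℝ := (4 * Fintype.card V) / kap with hR
  have hk := kap_pos
  have hR0 : 0 ≤ R := by positivity
  have hdec : ∀ i x, W.rho i x ≤ R * (1 / 2) ^ i := by
    intro i
    induction i with
    | zero => intro x; simp [LWorld.rho, hR]
    | succ i ih =>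
      intro x
      have h2 : W.rho (i + 1) x ≤ 16 * d1 * W.rho i x :=
        nxt_le_of W hbi hDT hmid (rho_scale W i) x
      have h3 : 16 * d1 * W.rho i x ≤ 1 / 2 * W.rho i x :=
        mul_le_mul_of_nonneg_right (by unfold d1; norm_num) ((rho_scale W i).nonneg x)
      have h4 := ih x
      rw [pow_succ]
      nlinarith
  obtain ⟨n, hn⟩ : ∃ n : ℕ, R * (1 / 2 : ℝ) ^ n < 1 := by
    rcases hR0.lt_or_eq with h | h
    · obtain ⟨n, hn⟩ := exists_pow_lt_of_lt_one (div_pos one_pos h)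
        (by norm_num : (1 / 2 : ℝ) < 1)
      refine ⟨n, ?_⟩
      rw [lt_div_iff₀ h] at hn
      linarith
    · exact ⟨0, by rw [← h]; norm_num⟩
  refine ⟨n + 1, fun x => ?_⟩
  by_contra hne
  have hx : 0 < W.nxt (W.rho n) x :=
    lt_of_le_of_ne (nxt_nonneg W _ x) (Ne.symm hne)
  obtain ⟨z, y, hu, -⟩ := nxt_attain W hx
  have h3 := hu.2.2.2.2.1
  have h4 := hu.2.2.2.2.2.1
  have h5 : W.rho n z < 1 := (hdec n z).trans_lt hn
  have h6 : (1 : ℝ) ≤ r0 := by unfold r0; norm_num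
  have h7 : kap * W.rho n z ≤ kap * 1 := mul_le_mul_of_nonneg_left h5.le hk.le
  have h8 : kap ≤ 1 := by unfold kap; norm_num
  linarith

omit [Fintype V] in
theorem d_le_card [Fintype V] (x y : V) : W.d x y ≤ Fintype.card V := by
  obtain ⟨p, hp⟩ := W.conn.exists_walk_length_eq_dist x y
  have h1 := (p.isPath_of_length_eq_dist hp).length_lt
  unfold LWorld.d
  rw [← hp]
  exact_mod_cast h1.le

/-- row r5 -/
theorem exists_level_of (hbi : BiOfReach W) (hDT : DT W) (hmid : ExMid W) {z y : V}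
    (hz : z ∈ W.N) (hy : y ∈ W.N) (hu : W.u z = W.u y)
    (hi : W.idx z ≤ W.idx y) (hd : r0 ≤ W.d z y) :
    ∃ i, z ∈ W.N ∧ y ∈ W.N ∧ W.u z = W.u y ∧ W.idx z ≤ W.idx y ∧ r0 ≤ W.d z y ∧
      W.nxt (W.rho i) z < W.d z y ∧ W.d z y ≤ W.rho i z ∧
      (kap * W.rho i z < 2 * W.d z y ∨
        ∃ k m, m < 16 ∧ inList (W.rho i z) k ∧ W.serves k m z y) := by
  classical
  obtain ⟨n, hn⟩ := rho_eventually_of W hbi hDT hmid
  have hr0 : (0 : ℝ) < r0 := by unfold r0; positivity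
  have hk := kap_pos
  have hex : ∃ i, W.rho i z < W.d z y := ⟨n, by rw [hn]; linarith⟩
  have hf := Nat.find_spec hex
  have h0 : W.d z y ≤ W.rho 0 z := by
    show W.d z y ≤ (4 * Fintype.card V) / kap
    have h1 := d_le_card W z y
    have h2 : (0 : ℝ) ≤ Fintype.card V := Nat.cast_nonneg _
    rw [le_div_iff₀ hk]
    have h3 : kap ≤ 1 := by unfold kap; norm_num
    nlinarith [d_nonneg W z y]
  have hfne : Nat.find hex ≠ 0 := by
    intro h
    rw [h] at hf
    linarith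
  obtain ⟨i, hi'⟩ : ∃ i, Nat.find hex = i + 1 := ⟨Nat.find hex - 1, by omega⟩
  have hnot : ¬ W.rho i z < W.d z y := Nat.find_min hex (by omega)
  rw [hi'] at hf
  have hf' : W.nxt (W.rho i) z < W.d z y := hf
  refine ⟨i, hz, hy, hu, hi, hd, hf', not_lt.1 hnot, ?_⟩
  by_contra hc
  push Not at hc
  have hun : W.uns (W.rho i) z y :=
    ⟨hz, hy, hu, hi, hd, hc.1, fun k m hm hl hs => hc.2 k m hm hl hs⟩
  have h3 := le_nxt W hun z
  rw [d_self] at h3
  simp at h3
  linarith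

end Vale.Agent.P235.STO.H649
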