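import Mathlib

/-! P235, (ST) O(1), section 2 (static plan), abstract. -/

namespace Vale.Agent.P235.ST.H649

variable {V : Type} [Finite V]

/-- the thickness `2 ^ k` is in the list at a point of radius `r` -/
def InList (d1 dl r : ℝ) (k : ℕ) : Prop := 4 ≤ k ∧ d1 * r ≤ 2 ^ k ∧ (2 : ℝ) ^ k ≤ dl * r

/-- the pair `(z, y)` is unserved for the radius function `ρ` -/
def Uns (d : V → V → ℝ) (Elig : V → V → Prop) (Srv : ℕ → V → V → Prop) (kap d1 dl r0 : ℝ)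
    (ρ : V → ℝ) (z y : V) : Prop :=
  Elig z y ∧ r0 ≤ d z y ∧ d z y ≤ kap / 2 * ρ z ∧ ∀ k, InList d1 dl (ρ z) k → ¬ Srv k z y

open Classical in
/-- the next radius function -/
noncomputable def next (d : V → V → ℝ) (Elig : V → V → Prop) (Srv : ℕ → V → V → Prop)
    (kap d1 dl r0 : ℝ) (ρ : V → ℝ) (x : V) : ℝ :=
  ⨆ p : V × V, if Uns d Elig Srv kap d1 dl r0 ρ p.1 p.2 then max (d p.1 p.2 - d x p.1 / kap) 0
    else 0

/-- the radius functions -/
noncomputable def rho (d : V → V → ℝ) (Elig : V → V → Prop) (Srv : ℕ → V → V → Prop)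
    (kap d1 dl r0 R : ℝ) : ℕ → V → ℝ
  | 0 => fun _ => R
  | i + 1 => next d Elig Srv kap d1 dl r0 (rho d Elig Srv kap d1 dl r0 R i)

section

variable {d : V → V → ℝ} {Elig : V → V → Prop} {Srv : ℕ → V → V → Prop}
  {kap d1 dl r0 R : ℝ} {ρ : V → ℝ}

theorem exists_thick (_hd1 : 0 ≤ d1) (hdl : 2 * d1 ≤ dl) {r : ℝ} (hr : 0 ≤ r)
    (h16 : 16 ≤ dl * r) : ∃ k, InList d1 dl r k ∧ (2 : ℝ) ^ k ≤ max 16 (2 * (d1 * r)) := by
  classical
  have hex : ∃ k : ℕ, 4 ≤ k ∧ d1 * r ≤ (2 : ℝ) ^ k := by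
    obtain ⟨n, hn⟩ := pow_unbounded_of_one_lt (d1 * r) (one_lt_two : (1 : ℝ) < 2)
    exact ⟨n + 4, by omega, hn.le.trans (pow_le_pow_right₀ one_le_two (by omega))⟩
  obtain ⟨h4, hk⟩ := Nat.find_spec hex
  have hmin : (2 : ℝ) ^ (Nat.find hex) ≤ max 16 (2 * (d1 * r)) := by
    by_cases h : Nat.find hex = 4
    · rw [h]; norm_num
    · obtain ⟨j, hj⟩ : ∃ j, Nat.find hex = j + 1 := ⟨Nat.find hex - 1, by omega⟩
      have hj' : ¬ (4 ≤ j ∧ d1 * r ≤ (2 : ℝ) ^ j) := Nat.find_min hex (by omega)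
      have : (2 : ℝ) ^ j < d1 * r := by
        by_contra hc
        exact hj' ⟨by omega, not_lt.1 hc⟩
      rw [hj, pow_succ]
      exact le_max_of_le_right (by linarith)
  refine ⟨Nat.find hex, ⟨h4, hk, hmin.trans (max_le h16 ?_)⟩, hmin⟩
  nlinarith

theorem Uns.le (hd1 : 0 ≤ d1) (hdl : 2 * d1 ≤ dl) (hkap : 0 < kap) (hkd : kap ≤ 10 * dl)
    (hr0 : 128 < r0) (hT : ∀ k z y, Elig z y → 8 * (2 : ℝ) ^ k < d z y → 4 ≤ k → Srv k z y)
    {z y : V} (h : Uns d Elig Srv kap d1 dl r0 ρ z y) : d z y ≤ 16 * d1 * ρ z := by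
  obtain ⟨hE, h0, h1, h2⟩ := h
  have hρ : 0 < ρ z := by
    by_contra hc
    have := mul_nonpos_of_nonneg_of_nonpos (by linarith : (0 : ℝ) ≤ kap / 2) (not_lt.1 hc)
    linarith
  have h16 : 16 ≤ dl * ρ z := by nlinarith
  obtain ⟨k, hk, hkm⟩ := exists_thick hd1 hdl hρ.le h16
  have h3 : d z y ≤ 8 * (2 : ℝ) ^ k := by
    by_contra hc
    exact h2 k hk (hT k z y hE (not_le.1 hc) hk.1)
  rcases le_max_iff.1 hkm with h4 | h4
  · linarith
  · nlinarith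

theorem next_nonneg (x : V) : 0 ≤ next d Elig Srv kap d1 dl r0 ρ x := by
  classical
  apply Real.iSup_nonneg
  intro p
  split_ifs
  · exact le_max_right _ _
  · exact le_rfl

theorem le_next {z y : V} (h : Uns d Elig Srv kap d1 dl r0 ρ z y) (x : V) :
    d z y - d x z / kap ≤ next d Elig Srv kap d1 dl r0 ρ x := by
  classical
  have := le_ciSup (f := fun p : V × V => if Uns d Elig Srv kap d1 dl r0 ρ p.1 p.2 then
    max (d p.1 p.2 - d x p.1 / kap) 0 else 0) (Set.finite_range _).bddAbove (z, y)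
  simp only [h, if_true] at this
  exact (le_max_left _ _).trans this

theorem exists_next {x : V} (h : 0 < next d Elig Srv kap d1 dl r0 ρ x) :
    ∃ z y, Uns d Elig Srv kap d1 dl r0 ρ z y ∧
      next d Elig Srv kap d1 dl r0 ρ x = d z y - d x z / kap := by
  classical
  haveI : Nonempty (V × V) := ⟨(x, x)⟩
  obtain ⟨p, hp⟩ := exists_eq_ciSup_of_finite (f := fun p : V × V =>
    if Uns d Elig Srv kap d1 dl r0 ρ p.1 p.2 then max (d p.1 p.2 - d x p.1 / kap) 0 else 0)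
  have hp' : next d Elig Srv kap d1 dl r0 ρ x = if Uns d Elig Srv kap d1 dl r0 ρ p.1 p.2 then
    max (d p.1 p.2 - d x p.1 / kap) 0 else 0 := hp.symm
  by_cases hu : Uns d Elig Srv kap d1 dl r0 ρ p.1 p.2
  · rw [if_pos hu] at hp'
    refine ⟨p.1, p.2, hu, ?_⟩
    rw [hp'] at h ⊢
    rcases lt_max_iff.1 h with h | h
    · exact max_eq_left h.le
    · exact absurd h (lt_irrefl _)
  · rw [if_neg hu] at hp'
    rw [hp'] at h
    exact absurd h (lt_irrefl _)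

theorem next_lip (hkap : 0 < kap) (hnn : ∀ x y, 0 ≤ d x y)
    (htri : ∀ x y z, d x z ≤ d x y + d y z) (x y : V) :
    next d Elig Srv kap d1 dl r0 ρ x ≤ next d Elig Srv kap d1 dl r0 ρ y + d y x / kap := by
  rcases (next_nonneg (d := d) (Elig := Elig) (Srv := Srv) (kap := kap) (d1 := d1) (dl := dl)
    (r0 := r0) (ρ := ρ) x).lt_or_eq with h | h
  · obtain ⟨z, y', hu, he⟩ := exists_next h
    have h1 := le_next hu y
    rw [he]
    have h2 : d y z / kap ≤ d y x / kap + d x z / kap := by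
      rw [← add_div]; gcongr; exact htri y x z
    linarith
  · rw [← h]
    have h1 := next_nonneg (d := d) (Elig := Elig) (Srv := Srv) (kap := kap) (d1 := d1) (dl := dl)
      (r0 := r0) (ρ := ρ) y
    have h2 : 0 ≤ d y x / kap := div_nonneg (hnn y x) hkap.le
    linarith

theorem next_le (h0 : 0 ≤ d1) (h1 : 16 * d1 ≤ 1) (hdl : 2 * d1 ≤ dl) (hkap : 0 < kap)
    (hkd : kap ≤ 10 * dl) (hr0 : 128 < r0) (hnn : ∀ x y, 0 ≤ d x y)
    (hT : ∀ k z y, Elig z y → 8 * (2 : ℝ) ^ k < d z y → 4 ≤ k → Srv k z y)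
    (hρ : ∀ x, 0 ≤ ρ x) (hlip : ∀ x y, ρ x ≤ ρ y + d y x / kap) (x : V) :
    next d Elig Srv kap d1 dl r0 ρ x ≤ 16 * d1 * ρ x := by
  rcases (next_nonneg (d := d) (Elig := Elig) (Srv := Srv) (kap := kap) (d1 := d1) (dl := dl)
    (r0 := r0) (ρ := ρ) x).lt_or_eq with h | h
  · obtain ⟨z, y, hu, he⟩ := exists_next h
    have h2 := hu.le h0 hdl hkap hkd hr0 hT
    have h3 := hlip z x
    have h4 : 0 ≤ d x z / kap := div_nonneg (hnn x z) hkap.le
    rw [he]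
    have h5 : 16 * d1 * ρ z ≤ 16 * d1 * (ρ x + d x z / kap) :=
      mul_le_mul_of_nonneg_left h3 (by linarith)
    have h6 : 16 * d1 * (d x z / kap) ≤ 1 * (d x z / kap) := mul_le_mul_of_nonneg_right h1 h4
    nlinarith
  · rw [← h]
    exact mul_nonneg (by linarith) (hρ x)

/-- a served pair is served by a clock of thickness at least `s / 16` -/
theorem exists_srv (_hkap : 0 < kap) (hkd : kap ≤ 10 * dl) {x y : V}
    (hT : ∀ k z y, Elig z y → 8 * (2 : ℝ) ^ k < d z y → 4 ≤ k → Srv k z y)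
    (hE : Elig x y) (hρ : 0 ≤ ρ x)
    (h0 : r0 ≤ d x y) (h1 : d x y ≤ kap / 2 * ρ x) (hu : ¬ Uns d Elig Srv kap d1 dl r0 ρ x y) :
    ∃ k, InList d1 dl (ρ x) k ∧ Srv k x y ∧ d x y ≤ 16 * (2 : ℝ) ^ k := by
  classical
  have hex : ∃ k, InList d1 dl (ρ x) k ∧ Srv k x y := by
    by_contra hc
    push Not at hc
    exact hu ⟨hE, h0, h1, hc⟩
  by_cases hc : ∃ k, InList d1 dl (ρ x) k ∧ 8 * (2 : ℝ) ^ k < d x y
  · obtain ⟨k0, hk0, hk1⟩ := hc
    have hfin : ∃ k : ℕ, d x y ≤ 8 * (2 : ℝ) ^ k := by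
      obtain ⟨n, hn⟩ := pow_unbounded_of_one_lt (d x y) (one_lt_two : (1 : ℝ) < 2)
      exact ⟨n, by linarith [pow_pos (two_pos : (0 : ℝ) < 2) n]⟩
    have hK := Nat.find_spec hfin
    have hlt : k0 < Nat.find hfin := by
      by_contra hle
      have : (2 : ℝ) ^ (Nat.find hfin) ≤ 2 ^ k0 := pow_le_pow_right₀ one_le_two (not_lt.1 hle)
      linarith
    obtain ⟨j, hj⟩ : ∃ j, Nat.find hfin = j + 1 := ⟨Nat.find hfin - 1, by omega⟩
    have hj' : ¬ d x y ≤ 8 * (2 : ℝ) ^ j := Nat.find_min hfin (by omega)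
    rw [hj, pow_succ] at hK
    have hj0 : k0 ≤ j := by omega
    have hpow : (2 : ℝ) ^ k0 ≤ 2 ^ j := pow_le_pow_right₀ one_le_two hj0
    refine ⟨j, ⟨hk0.1.trans hj0, hk0.2.1.trans hpow, ?_⟩, ?_, ?_⟩
    · have : kap * ρ x ≤ 10 * dl * ρ x := mul_le_mul_of_nonneg_right hkd hρ
      nlinarith [pow_pos (two_pos : (0 : ℝ) < 2) j]
    · exact hT j x y hE (not_le.1 hj') (hk0.1.trans hj0)
    · linarith
  · push Not at hc
    obtain ⟨k, hk, hs⟩ := hex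
    have := hc k hk
    exact ⟨k, hk, hs, by linarith [pow_pos (two_pos : (0 : ℝ) < 2) k]⟩

/-- **THE STATIC PLAN.** -/
theorem plan (d : V → V → ℝ) (Elig : V → V → Prop) (Srv : ℕ → V → V → Prop)
    {kap d1 dl r0 R : ℝ} (h0 : 0 ≤ d1) (h1 : 32 * d1 ≤ 1) (hdl : 2 * d1 ≤ dl) (hkap : 0 < kap)
    (hkd : kap ≤ 10 * dl) (hr0 : 128 < r0) (hR : 0 ≤ R) (hnn : ∀ x y, 0 ≤ d x y)
    (hself : ∀ x, d x x = 0) (htri : ∀ x y z, d x z ≤ d x y + d y z)
    (hT : ∀ k z y, Elig z y → 8 * (2 : ℝ) ^ k < d z y → 4 ≤ k → Srv k z y) :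
    ∃ (m : ℕ) (ρ : ℕ → V → ℝ), (∀ x, ρ 0 x = R) ∧ (∀ x, ρ m x = 0) ∧
      (∀ i x, 0 ≤ ρ i x) ∧
      (∀ i x y, ρ i x ≤ ρ i y + d y x / kap) ∧
      (∀ i x, ρ (i + 1) x ≤ 16 * d1 * ρ i x) ∧
      (∀ i x, 0 < ρ (i + 1) x → ∃ z y, Elig z y ∧ r0 ≤ d z y ∧
        ρ (i + 1) x + d x z / kap = d z y ∧ d z y ≤ 16 * d1 * ρ i z ∧
        d z y ≤ kap / 2 * ρ i z ∧ ∀ k, InList d1 dl (ρ i z) k → ¬ Srv k z y) ∧
      (∀ x y, Elig x y → r0 ≤ d x y → d x y ≤ R → ∃ i, i < m ∧ ρ (i + 1) x < d x y ∧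
        d x y ≤ ρ i x ∧ (kap / 2 * ρ i x < d x y ∨
          ∃ k, InList d1 dl (ρ i x) k ∧ Srv k x y ∧ d x y ≤ 16 * (2 : ℝ) ^ k)) := by
  classical
  set ρ : ℕ → V → ℝ := rho d Elig Srv kap d1 dl r0 R with hρdef
  have hs : ∀ i, ρ (i + 1) = next d Elig Srv kap d1 dl r0 (ρ i) := fun i => rfl
  have hz : ∀ x, ρ 0 x = R := fun x => rfl
  have hn : ∀ i x, 0 ≤ ρ i x := by
    intro i x
    cases i with
    | zero => rw [hz]; exact hR
    | succ i => rw [hs]; exact next_nonneg x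
  have hl : ∀ i x y, ρ i x ≤ ρ i y + d y x / kap := by
    intro i x y
    cases i with
    | zero => rw [hz, hz]; linarith [div_nonneg (hnn y x) hkap.le]
    | succ i => rw [hs]; exact next_lip hkap hnn htri x y
  have hb : ∀ i x, ρ (i + 1) x ≤ 16 * d1 * ρ i x := by
    intro i x
    rw [hs]
    exact next_le h0 (by linarith) hdl hkap hkd hr0 hnn hT (hn i) (hl i) x
  have hwit : ∀ i x, 0 < ρ (i + 1) x → ∃ z y, Elig z y ∧ r0 ≤ d z y ∧
        ρ (i + 1) x + d x z / kap = d z y ∧ d z y ≤ 16 * d1 * ρ i z ∧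
        d z y ≤ kap / 2 * ρ i z ∧ ∀ k, InList d1 dl (ρ i z) k → ¬ Srv k z y := by
    intro i x hx
    rw [hs] at hx
    obtain ⟨z, y, hu, he⟩ := exists_next hx
    refine ⟨z, y, hu.1, hu.2.1, ?_, hu.le h0 hdl hkap hkd hr0 hT, hu.2.2.1, hu.2.2.2⟩
    rw [hs, he]; ring
  have hdec : ∀ i x, ρ i x ≤ R * (1 / 2) ^ i := by
    intro i
    induction i with
    | zero => intro x; rw [hz]; simp
    | succ i ih =>
      intro x
      have h2 := hb i x
      have h3 : 16 * d1 * ρ i x ≤ 1 / 2 * ρ i x :=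
        mul_le_mul_of_nonneg_right (by linarith) (hn i x)
      have h4 := ih x
      rw [pow_succ]
      nlinarith
  obtain ⟨m, hm⟩ : ∃ m : ℕ, R * (1 / 2 : ℝ) ^ m < 2 * r0 / kap := by
    have hpos : 0 < 2 * r0 / kap := by positivity
    rcases hR.lt_or_eq with h | h
    · obtain ⟨n, hn⟩ := exists_pow_lt_of_lt_one (div_pos hpos h) (by norm_num : (1 / 2 : ℝ) < 1)
      refine ⟨n, ?_⟩
      rw [lt_div_iff₀ h] at hn
      linarith
    · exact ⟨0, by rw [← h]; simpa using hpos⟩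
  have hzero : ∀ x, ρ (m + 1) x = 0 := by
    intro x
    by_contra hne
    have hx : 0 < ρ (m + 1) x := lt_of_le_of_ne (hn _ _) (Ne.symm hne)
    obtain ⟨z, y, -, h3, -, -, h4, -⟩ := hwit m x hx
    have h5 := (hdec m z).trans_lt hm
    rw [lt_div_iff₀ hkap] at h5
    linarith
  refine ⟨m + 1, ρ, hz, hzero, hn, hl, hb, hwit, ?_⟩
  intro x y hE hr hRR
  have hex : ∃ i, ρ i x < d x y := ⟨m + 1, by rw [hzero]; linarith⟩
  have hf := Nat.find_spec hex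
  have hfne : Nat.find hex ≠ 0 := by
    intro h
    rw [h, hz] at hf
    linarith
  have hfle : Nat.find hex ≤ m + 1 := Nat.find_min' hex (by rw [hzero]; linarith)
  obtain ⟨i, hi⟩ : ∃ i, Nat.find hex = i + 1 := ⟨Nat.find hex - 1, by omega⟩
  have hi' : ¬ ρ i x < d x y := Nat.find_min hex (by omega)
  rw [hi] at hf
  refine ⟨i, by omega, hf, not_lt.1 hi', ?_⟩
  by_cases hc : kap / 2 * ρ i x < d x y
  · exact Or.inl hc
  · right
    apply exists_srv (r0 := r0) hkap hkd hT hE (hn i x) hr (not_lt.1 hc)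
    intro hu
    have h3 := le_next hu x
    rw [← hs, hself] at h3
    simp at h3
    linarith

end

end Vale.Agent.P235.ST.H649
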