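import Vale.Agent.P235.ST.H317.Defs2
import Vale.Agent.P235.ST.H119.Clock
import Vale.Agent.P235.ST.H649.Rows345

/-! P235, (ST) O(1): rows r3, r4, r5 in the official form, no hypotheses. helper649. -/

namespace Vale.Agent.P235.STO.H649R

open SimpleGraph

variable {V : Type} (W : LWorld V)

theorem hbi : H649.BiOfReach W := fun k m _ _ h => H119.bi_of_reach W k m h

theorem hmid : H649.ExMid W := fun k z => H119.exists_mid W k z

variable [Fintype V]

theorem hDT : H649.DT W := fun k m _ _ hp hq h hi => H119.D_T W k m hp hq h hi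

theorem nxt_scale (ρ : V → ℝ) : W.Scale (W.nxt ρ) := H649.nxt_scale W ρ

theorem rho_scale (i : ℕ) : W.Scale (W.rho i) := H649.rho_scale W i

theorem uns_le {ρ : V → ℝ} (_h : W.Scale ρ) {z y : V} (hu : W.uns ρ z y) :
    W.d z y ≤ 16 * d1 * ρ z := H649.uns_le_of W (hbi W) (hDT W) (hmid W) hu

theorem nxt_le {ρ : V → ℝ} (h : W.Scale ρ) (x : V) : W.nxt ρ x ≤ 16 * d1 * ρ x :=
  H649.nxt_le_of W (hbi W) (hDT W) (hmid W) h x

theorem nxt_attain {ρ : V → ℝ} {x : V} (h : 0 < W.nxt ρ x) :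
    ∃ z y, W.uns ρ z y ∧ W.nxt ρ x = W.d z y - W.d x z / kap := H649.nxt_attain W h

theorem le_nxt {ρ : V → ℝ} {z y : V} (hu : W.uns ρ z y) (x : V) :
    W.d z y - W.d x z / kap ≤ W.nxt ρ x := H649.le_nxt W hu x

theorem rho_eventually : ∃ n, ∀ x, W.rho n x = 0 :=
  H649.rho_eventually_of W (hbi W) (hDT W) (hmid W)

theorem exists_level {z y : V} (hz : z ∈ W.N) (hy : y ∈ W.N) (hu : W.u z = W.u y)
    (hi : W.idx z ≤ W.idx y) (hd : r0 ≤ W.d z y) : ∃ i, W.tgt (W.rho i) z y :=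
  H649.exists_level_of W (hbi W) (hDT W) (hmid W) hz hy hu hi hd

end Vale.Agent.P235.STO.H649R
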